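import Vale.Agent.P123.Final

namespace Vale.Agent.Results.P123.Crouzeix

universe u

/-- Crouzeix's conjecture: `2` is the least constant `C` such that
`‖P(A)‖ ≤ C * sup {|P(z)| : z ∈ W(A)}` for every nonzero complex Hilbert space `H`, every bounded
operator `A` on `H` and every complex polynomial `P`, where
`W(A) = {⟨A x, x⟩ : ‖x‖ = 1}` (Mathlib's inner product is linear in the second argument). -/
theorem result :
    IsLeast {C : ℝ | ∀ (H : Type u) [NormedAddCommGroup H] [InnerProductSpace ℂ H]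
      [CompleteSpace H] [Nontrivial H] (A : H →L[ℂ] H) (P : Polynomial ℂ),
      ‖Polynomial.aeval A P‖ ≤ C * sSup ((fun z : ℂ => ‖Polynomial.eval z P‖) ''
        {z : ℂ | ∃ x : H, ‖x‖ = 1 ∧ inner ℂ x (A x) = z})} 2 :=
  ⟨fun H _ _ _ _ A P => Vale.Agent.P123.upper H A P, fun C hC => Vale.Agent.P123.lower C hC⟩

end Vale.Agent.Results.P123.Crouzeix
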